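import Vale.Agent.H27.TW.Det

/-!
# P343: exponential lower bounds against two-way targets running in linear time

Crossing sequences on words made of many independent two-letter blocks.
-/

open Vale.Agent.H27.TW

theorem Vale.Agent.Results.P343.LinearTime.result (h : ℕ) :
    ∃ (α Q : Type) (_ : Fintype α) (_ : Fintype Q) (A : TwoNFA α Q),
      A.OneWay ∧ Fintype.card Q = h + 2 ∧
      (∀ (k T C : ℕ) (B : TwoNFA α (Fin k)),
        (∀ w : List α, B.Accepts w ↔ ¬ A.Accepts w) →
        (∀ w : List α, B.Accepts w → ∃ t ≤ T * w.length + C, B.AcceptsIn w t) →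
        2 ^ h ≤ (k + 1) ^ (2 * T + 1)) ∧
      (∀ (k T C : ℕ) (B : TwoNFA α (Fin k)), B.Deterministic →
        (∀ w : List α, B.Accepts w ↔ A.Accepts w) →
        (∀ w : List α, ¬ B.Accepts w →
          ∀ (d : Fin k × ℕ) (t : ℕ), B.Run w (B.start, 0) d t → t ≤ T * w.length + C) →
        2 ^ h ≤ (k + 2) ^ (2 * T + 1)) := by
  refine ⟨Letter h, Option (Option (Fin h)), inferInstance, inferInstance, src h, src_oneWay h,
    by simp, ?_, ?_⟩
  · intro k T C B hB hT
    have := size_bound B hB T C hT
    rwa [Fintype.card_fin] at this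
  · intro k T C B hdet hB hT
    have := det_bound B hdet hB T C hT
    rwa [Fintype.card_fin] at this
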